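import Mathlib

/-!
# P141, line (A): the blind and the signed number of one slot

`num_comp` : a number with a bound which has a gain in `y` (blind in the signs) and a bound which
has a gain in the energy `E` (with the signs) has both gains at once; the parameters `L`, `dl` are
chosen here.
-/

namespace Vale.Agent.P141.H453

noncomputable section

/-- a logarithm against a small power -/
theorem log_absorb (q : ℕ) {θ : ℝ} (hθ : 0 < θ) :
    ∃ C : ℝ, 1 ≤ C ∧ ∀ x : ℝ, 0 < x → x ≤ 1 → (1 + Real.log (1 / x)) ^ q * x ^ θ ≤ C := by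
  set ε : ℝ := θ / (q + 1) with hε
  have hq : (0 : ℝ) < (q : ℝ) + 1 := by positivity
  have hε0 : 0 < ε := div_pos hθ hq
  refine ⟨(1 + 1 / ε) ^ q, one_le_pow₀ (by
    have : 0 < 1 / ε := by positivity
    linarith), fun x hx hx1 => ?_⟩
  have h0 : 1 ≤ 1 / x := by rw [le_div_iff₀ hx]; linarith
  have h1 : Real.log (1 / x) ≤ (1 / x) ^ ε / ε := Real.log_le_rpow_div (by positivity) hε0
  have h2 : 1 ≤ (1 / x) ^ ε := Real.one_le_rpow h0 hε0.le
  have h3 : 1 + Real.log (1 / x) ≤ (1 + 1 / ε) * (1 / x) ^ ε := by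
    have e : (1 + 1 / ε) * (1 / x) ^ ε = (1 / x) ^ ε + (1 / x) ^ ε / ε := by ring
    rw [e]
    linarith
  have h4 : 0 ≤ 1 + Real.log (1 / x) := by
    have := Real.log_nonneg h0
    linarith
  have hx0 : 0 ≤ x ^ θ := (Real.rpow_pos_of_pos hx θ).le
  have h5 : ((1 / x) ^ ε) ^ q * x ^ θ ≤ 1 := by
    have e1 : ((1 / x) ^ ε) ^ q = x ^ (-(ε * q)) := by
      rw [one_div, Real.inv_rpow hx.le, ← Real.rpow_neg hx.le, ← Real.rpow_mul_natCast hx.le]
      congr 1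
      ring
    rw [e1, ← Real.rpow_add hx]
    refine Real.rpow_le_one hx.le hx1 ?_
    have e2 : ε * ((q : ℝ) + 1) = θ := by rw [hε]; field_simp
    have : ε * (q : ℝ) ≤ ε * ((q : ℝ) + 1) := mul_le_mul_of_nonneg_left (by linarith) hε0.le
    linarith
  calc (1 + Real.log (1 / x)) ^ q * x ^ θ
      ≤ ((1 + 1 / ε) * (1 / x) ^ ε) ^ q * x ^ θ :=
        mul_le_mul_of_nonneg_right (pow_le_pow_left₀ h4 h3 q) hx0
    _ = (1 + 1 / ε) ^ q * (((1 / x) ^ ε) ^ q * x ^ θ) := by rw [mul_pow]; ring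
    _ ≤ (1 + 1 / ε) ^ q * 1 := mul_le_mul_of_nonneg_left h5 (by positivity)
    _ = _ := mul_one _

/-- the number of scales with a given power of two -/
theorem exists_L {Z : ℝ} (hZ : 1 ≤ Z) : ∃ L : ℕ, Z ≤ 2 ^ L ∧ (1 + L : ℝ) ≤ 2 + 2 * Real.log Z := by
  have hZ0 : 0 < Z := by linarith
  have hl := Real.log_nonneg hZ
  have h2 : (1 : ℝ) / 2 < Real.log 2 := by
    have := Real.log_two_gt_d9
    linarith
  have h20 : (0 : ℝ) < Real.log 2 := by linarith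
  have hb : 0 ≤ Real.logb 2 Z := by
    unfold Real.logb
    positivity
  refine ⟨⌈Real.logb 2 Z⌉₊, ?_, ?_⟩
  · have e : (2 : ℝ) ^ (Real.logb 2 Z) = Z :=
      Real.rpow_logb (by norm_num) (by norm_num) hZ0
    calc Z = (2 : ℝ) ^ (Real.logb 2 Z) := e.symm
      _ ≤ (2 : ℝ) ^ ((⌈Real.logb 2 Z⌉₊ : ℕ) : ℝ) :=
        Real.rpow_le_rpow_of_exponent_le (by norm_num) (Nat.le_ceil _)
      _ = _ := Real.rpow_natCast _ _
  · have h3 := (Nat.ceil_lt_add_one hb).le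
    have h4 : Real.logb 2 Z ≤ 2 * Real.log Z := by
      unfold Real.logb
      rw [div_le_iff₀ h20]
      nlinarith
    linarith

/-- the numbers of scales of the two bounds -/
theorem L_le {a lk ly le : ℝ} (ha : 0 ≤ a) (hk : 0 ≤ lk) (hy : 0 ≤ ly) (he : 0 ≤ le) :
    2 + 2 * (2 + 2 * lk + (a + 1) * ly + (1 + le)) ≤ 8 * (a + 1) * (1 + lk + ly + le) := by
  have m1 : 0 ≤ a * lk := mul_nonneg ha hk
  have m2 : 0 ≤ a * ly := mul_nonneg ha hy
  have m3 : 0 ≤ a * le := mul_nonneg ha he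
  have e : 8 * (a + 1) * (1 + lk + ly + le) = 8 * a + 8 * (a * lk) + 8 * (a * ly) + 8 * (a * le) +
      8 + 8 * lk + 8 * ly + 8 * le := by ring
  have e2 : 2 + 2 * (2 + 2 * lk + (a + 1) * ly + (1 + le)) =
      8 + 4 * lk + 2 * (a * ly) + 2 * ly + 2 * le := by ring
  rw [e, e2]
  linarith

theorem log_y {y : ℝ} (hy : 0 < y) (a : ℝ) : Real.log (y ^ (-a)) = a * Real.log (1 / y) := by
  rw [Real.log_rpow hy, one_div, Real.log_inv]
  ring

theorem log_k2 {κ : ℝ} (hκ : 1 ≤ κ) : Real.log ((1 + κ) ^ 2) ≤ 2 + 2 * Real.log κ := by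
  have h1 : Real.log (1 + κ) ≤ Real.log (2 * κ) := Real.log_le_log (by linarith) (by linarith)
  rw [Real.log_mul (by norm_num) (by linarith)] at h1
  have h2 : Real.log 2 ≤ 1 := by
    have := Real.log_two_lt_d9
    linarith
  rw [Real.log_pow]
  push_cast
  linarith

/-- the blind bound with its `L` -/
theorem blind_L (q : ℕ) {e0 C0 a A EM : ℝ} (he0 : 0 < e0) (he1 : e0 ≤ 1) (hC0 : 0 ≤ C0)
    (ha : C0 ≤ a) (hA : 1 ≤ A) (hEM : 1 ≤ EM) {y κ D b X le : ℝ} (hy : 0 < y) (hy1 : y ≤ 1)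
    (hκ : 1 ≤ κ) (hD : 0 ≤ D) (hb : 1 ≤ b) (hle : 0 ≤ le)
    (blind : ∀ L : ℕ, X ≤ D * ((1 + (L : ℝ)) ^ q * (b * A * y ^ e0 +
        (1 + κ) ^ 2 * y ^ (-C0) / 2 ^ L))) :
    X ≤ D * (8 * (a + 1) * (1 + Real.log κ + Real.log (1 / y) + le)) ^ q * (4 * A * EM * b) *
      y ^ e0 := by
  have ha0 : 0 ≤ a := hC0.trans ha
  have hy' : 1 ≤ 1 / y := by rw [le_div_iff₀ hy]; linarith
  have ly0 : 0 ≤ Real.log (1 / y) := Real.log_nonneg hy'
  have lk0 : 0 ≤ Real.log κ := Real.log_nonneg hκ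
  have hκ2 : (1 : ℝ) ≤ (1 + κ) ^ 2 := one_le_pow₀ (by linarith)
  have ye0 : 0 < y ^ e0 := Real.rpow_pos_of_pos hy _
  have yp : 1 ≤ y ^ (-(C0 + e0)) :=
    Real.one_le_rpow_of_pos_of_le_one_of_nonpos hy hy1 (by linarith)
  obtain ⟨L, hL1, hL2⟩ := exists_L (Z := (1 + κ) ^ 2 * y ^ (-(C0 + e0)))
    (one_le_mul_of_one_le_of_one_le hκ2 yp)
  rw [Real.log_mul (by positivity) (by positivity), log_y hy] at hL2
  have hk := log_k2 hκ
  have h1 : (1 + (L : ℝ)) ≤ 8 * (a + 1) * (1 + Real.log κ + Real.log (1 / y) + le) := by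
    have h3 := L_le ha0 lk0 ly0 hle
    have h4 : (C0 + e0) * Real.log (1 / y) ≤ (a + 1) * Real.log (1 / y) :=
      mul_le_mul_of_nonneg_right (by linarith) ly0
    linarith
  have h4 : (1 + κ) ^ 2 * y ^ (-C0) / 2 ^ L ≤ y ^ e0 := by
    rw [div_le_iff₀ (by positivity)]
    have e : y ^ (-C0) = y ^ e0 * y ^ (-(C0 + e0)) := by
      rw [← Real.rpow_add hy]
      congr 1
      ring
    rw [e]
    calc (1 + κ) ^ 2 * (y ^ e0 * y ^ (-(C0 + e0))) =
        y ^ e0 * ((1 + κ) ^ 2 * y ^ (-(C0 + e0))) := by ring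
      _ ≤ y ^ e0 * 2 ^ L := mul_le_mul_of_nonneg_left hL1 ye0.le
  have h6 : b * A * y ^ e0 + (1 + κ) ^ 2 * y ^ (-C0) / 2 ^ L ≤ 4 * A * EM * b * y ^ e0 := by
    have h7 : 1 ≤ b * A := one_le_mul_of_one_le_of_one_le hb hA
    have h8 : b * A ≤ b * A * EM := le_mul_of_one_le_right (by positivity) hEM
    have h9 : b * A * y ^ e0 + y ^ e0 ≤ 4 * A * EM * b * y ^ e0 := by
      have : (b * A + 1) * y ^ e0 ≤ (4 * A * EM * b) * y ^ e0 :=
        mul_le_mul_of_nonneg_right (by linarith) ye0.le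
      linarith
    linarith
  have h5 : (1 + (L : ℝ)) ^ q * (b * A * y ^ e0 + (1 + κ) ^ 2 * y ^ (-C0) / 2 ^ L) ≤
      (8 * (a + 1) * (1 + Real.log κ + Real.log (1 / y) + le)) ^ q *
        (4 * A * EM * b * y ^ e0) :=
    mul_le_mul (pow_le_pow_left₀ (by positivity) h1 q) h6 (by positivity) (by positivity)
  exact (blind L).trans ((mul_le_mul_of_nonneg_left h5 hD).trans (le_of_eq (by ring)))

/-- the terms of the signed bound at `dl = √E` -/
theorem signed_terms {A E EM Y b : ℝ} (hA : 1 ≤ A) (hE : 0 < E) (hEM : 1 ≤ EM) (hEE : E ≤ EM)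
    (hY : 1 ≤ Y) (hb : 1 ≤ b) :
    A * √E + Y * E / √E + A * E + √E ≤ 4 * A * EM * b * (Y * (E / EM) ^ (1 / 2 : ℝ)) := by
  have hEM0 : 0 < EM := by linarith
  have hw0 : 0 < √E := Real.sqrt_pos.2 hE
  have hww : √E * √E = E := Real.mul_self_sqrt hE.le
  have hE10 : 0 < E / EM := div_pos hE hEM0
  have hwR : √E = √EM * (E / EM) ^ (1 / 2 : ℝ) := by
    rw [← Real.sqrt_eq_rpow, ← Real.sqrt_mul hEM0.le, mul_div_cancel₀ _ hEM0.ne']
  have hMM : √EM * √EM = EM := Real.mul_self_sqrt hEM0.le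
  have hM1 : 1 ≤ √EM := Real.one_le_sqrt.2 hEM
  have hwM : √E ≤ √EM := Real.sqrt_le_sqrt hEE
  have f1 : Y * E / √E = Y * √E := by
    rw [div_eq_iff hw0.ne', mul_assoc, hww]
  rw [f1]
  have hYw : √E ≤ Y * √E := le_mul_of_one_le_left hw0.le hY
  have hAM : 1 ≤ A * √EM := one_le_mul_of_one_le_of_one_le hA hM1
  have k0 : 0 ≤ Y * √E := by positivity
  have g1 : A * √E ≤ A * √EM * (Y * √E) := by
    refine mul_le_mul (le_mul_of_one_le_right (by linarith) hM1) hYw hw0.le (by positivity)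
  have g2 : Y * √E ≤ A * √EM * (Y * √E) := le_mul_of_one_le_left k0 hAM
  have g3 : A * E ≤ A * √EM * (Y * √E) := by
    calc A * E = A * (√E * √E) := by rw [hww]
      _ ≤ A * (√EM * (Y * √E)) := by
        refine mul_le_mul_of_nonneg_left ?_ (by linarith)
        exact mul_le_mul hwM hYw hw0.le (by positivity)
      _ = _ := by ring
  have g4 : √E ≤ A * √EM * (Y * √E) := hYw.trans g2
  have g5 : 4 * (A * √EM * (Y * √E)) ≤ 4 * A * EM * b * (Y * (E / EM) ^ (1 / 2 : ℝ)) := by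
    have e : 4 * (A * √EM * (Y * √E)) = 4 * A * EM * (Y * (E / EM) ^ (1 / 2 : ℝ)) := by
      rw [hwR]
      calc 4 * (A * √EM * (Y * (√EM * (E / EM) ^ (1 / 2 : ℝ)))) =
          4 * A * (√EM * √EM) * (Y * (E / EM) ^ (1 / 2 : ℝ)) := by ring
        _ = _ := by rw [hMM]
    rw [e]
    have h1 : 4 * A * EM ≤ 4 * A * EM * b := le_mul_of_one_le_right (by positivity) hb
    have h2 : 0 ≤ Y * (E / EM) ^ (1 / 2 : ℝ) :=
      mul_nonneg (by linarith) (Real.rpow_nonneg hE10.le _)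
    exact mul_le_mul_of_nonneg_right h1 h2
  linarith

/-- the signed bound with its `L`, `dl` -/
theorem signed_L (q : ℕ) {C1 a A EM : ℝ} (hC1 : 0 ≤ C1) (ha : C1 ≤ a) (hA : 1 ≤ A)
    (hEM : 1 ≤ EM) {y κ E D b X : ℝ} (hy : 0 < y) (hy1 : y ≤ 1) (hκ : 1 ≤ κ) (hE : 0 < E)
    (hEE : E ≤ EM) (hD : 0 ≤ D) (hb : 1 ≤ b)
    (signed : ∀ L : ℕ, ∀ dl : ℝ, 0 < dl → X ≤ D * ((1 + (L : ℝ)) ^ q * (A * dl +
      y ^ (-C1) * E / dl + A * E + (1 + κ) ^ 2 * y ^ (-C1) * (1 + 1 / dl) / 2 ^ L))) :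
    X ≤ D * (8 * (a + 1) * (1 + Real.log κ + Real.log (1 / y) + Real.log (1 / (E / EM)))) ^ q *
      (4 * A * EM * b) * (y ^ (-C1) * (E / EM) ^ (1 / 2 : ℝ)) := by
  have ha0 : 0 ≤ a := hC1.trans ha
  have hEM0 : 0 < EM := by linarith
  have hE10 : 0 < E / EM := div_pos hE hEM0
  have hE11 : E / EM ≤ 1 := by rw [div_le_one hEM0]; exact hEE
  have hy' : 1 ≤ 1 / y := by rw [le_div_iff₀ hy]; linarith
  have hE1' : 1 ≤ 1 / (E / EM) := by rw [le_div_iff₀ hE10]; linarith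
  have ly0 : 0 ≤ Real.log (1 / y) := Real.log_nonneg hy'
  have lk0 : 0 ≤ Real.log κ := Real.log_nonneg hκ
  have le0 : 0 ≤ Real.log (1 / (E / EM)) := Real.log_nonneg hE1'
  have hκ2 : (1 : ℝ) ≤ (1 + κ) ^ 2 := one_le_pow₀ (by linarith)
  have hY1 : 1 ≤ y ^ (-C1) := Real.one_le_rpow_of_pos_of_le_one_of_nonpos hy hy1 (by linarith)
  have hY0 : 0 < y ^ (-C1) := by linarith
  have hZ : 1 ≤ (1 + κ) ^ 2 * y ^ (-C1) * (2 * (1 / (E / EM))) :=
    one_le_mul_of_one_le_of_one_le (one_le_mul_of_one_le_of_one_le hκ2 hY1) (by linarith)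
  obtain ⟨L, hL1, hL2⟩ := exists_L hZ
  rw [Real.log_mul (by positivity) (by positivity), Real.log_mul (by positivity) (by positivity),
    log_y hy, Real.log_mul (by norm_num) (by positivity)] at hL2
  have h2l : Real.log 2 ≤ 1 := by
    have := Real.log_two_lt_d9
    linarith
  have hk := log_k2 hκ
  have h1 : (1 + (L : ℝ)) ≤
      8 * (a + 1) * (1 + Real.log κ + Real.log (1 / y) + Real.log (1 / (E / EM))) := by
    have h3 := L_le ha0 lk0 ly0 le0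
    have h4 : C1 * Real.log (1 / y) ≤ (a + 1) * Real.log (1 / y) :=
      mul_le_mul_of_nonneg_right (by linarith) ly0
    linarith
  have hw0 : 0 < √E := Real.sqrt_pos.2 hE
  have hww : √E * √E = E := Real.mul_self_sqrt hE.le
  have hwM : √E ≤ EM := by
    refine Real.sqrt_le_iff.2 ⟨hEM0.le, ?_⟩
    nlinarith
  have h4 : (1 + κ) ^ 2 * y ^ (-C1) * (1 + 1 / √E) / 2 ^ L ≤ √E := by
    rw [div_le_iff₀ (by positivity)]
    have e1 : 1 + 1 / √E ≤ √E * (2 * (1 / (E / EM))) := by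
      have e2 : √E * (2 * (1 / (E / EM))) = 2 * EM / √E := by
        have e3 : 1 / (E / EM) = EM / (√E * √E) := by rw [hww, one_div_div]
        rw [e3]
        field_simp
      rw [e2, le_div_iff₀ hw0]
      have e3 : (1 + 1 / √E) * √E = √E + 1 := by field_simp
      rw [e3]
      linarith
    calc (1 + κ) ^ 2 * y ^ (-C1) * (1 + 1 / √E) ≤
        (1 + κ) ^ 2 * y ^ (-C1) * (√E * (2 * (1 / (E / EM)))) :=
          mul_le_mul_of_nonneg_left e1 (by positivity)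
      _ = √E * ((1 + κ) ^ 2 * y ^ (-C1) * (2 * (1 / (E / EM)))) := by ring
      _ ≤ √E * 2 ^ L := mul_le_mul_of_nonneg_left hL1 hw0.le
  have h5 : A * √E + y ^ (-C1) * E / √E + A * E +
      (1 + κ) ^ 2 * y ^ (-C1) * (1 + 1 / √E) / 2 ^ L ≤
      4 * A * EM * b * (y ^ (-C1) * (E / EM) ^ (1 / 2 : ℝ)) := by
    have := signed_terms hA hE hEM hEE hY1 hb
    linarith
  have h50 : 0 ≤ A * √E + y ^ (-C1) * E / √E + A * E +
      (1 + κ) ^ 2 * y ^ (-C1) * (1 + 1 / √E) / 2 ^ L := by positivity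
  have h6 : (1 + (L : ℝ)) ^ q * (A * √E + y ^ (-C1) * E / √E + A * E +
      (1 + κ) ^ 2 * y ^ (-C1) * (1 + 1 / √E) / 2 ^ L) ≤
      (8 * (a + 1) * (1 + Real.log κ + Real.log (1 / y) + Real.log (1 / (E / EM)))) ^ q *
        (4 * A * EM * b * (y ^ (-C1) * (E / EM) ^ (1 / 2 : ℝ))) :=
    mul_le_mul (pow_le_pow_left₀ (by positivity) h1 q) h5 h50 (by positivity)
  exact (signed L (√E) hw0).trans ((mul_le_mul_of_nonneg_left h6 hD).trans (le_of_eq (by ring)))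

/-- two bounds, one power of each -/
theorem interp {e0 C1 lam a1 y E1 X : ℝ} (he0 : 0 < e0) (hC1 : 0 ≤ C1)
    (hlam : lam = e0 / (2 * (e0 + C1))) (ha1 : 0 ≤ a1) (hy : 0 < y) (hE1 : 0 < E1)
    (h1 : X ≤ a1 * y ^ e0) (h2 : X ≤ a1 * (y ^ (-C1) * E1 ^ (1 / 2 : ℝ))) :
    X ≤ a1 * (y ^ (e0 / 2) * E1 ^ (lam / 2)) := by
  have hs : 0 < e0 + C1 := by linarith
  have hlam0 : 0 ≤ lam := by rw [hlam]; positivity
  have hlam1 : lam ≤ 1 := by
    rw [hlam, div_le_one (by positivity)]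
    linarith
  have hu : 0 < y ^ e0 := Real.rpow_pos_of_pos hy _
  have hv : 0 < y ^ (-C1) * E1 ^ (1 / 2 : ℝ) :=
    mul_pos (Real.rpow_pos_of_pos hy _) (Real.rpow_pos_of_pos hE1 _)
  have e1 : (y ^ e0) ^ (1 - lam) * (y ^ (-C1) * E1 ^ (1 / 2 : ℝ)) ^ lam =
      y ^ (e0 / 2) * E1 ^ (lam / 2) := by
    rw [Real.mul_rpow (Real.rpow_nonneg hy.le _) (Real.rpow_nonneg hE1.le _),
      ← Real.rpow_mul hy.le, ← Real.rpow_mul hy.le, ← Real.rpow_mul hE1.le, ← mul_assoc,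
      ← Real.rpow_add hy]
    have e2 : e0 * (1 - lam) + -C1 * lam = e0 / 2 := by
      rw [hlam]
      field_simp
      ring
    have e3 : (1 / 2 : ℝ) * lam = lam / 2 := by ring
    rw [e2, e3]
  rw [← e1]
  rcases le_total (y ^ e0) (y ^ (-C1) * E1 ^ (1 / 2 : ℝ)) with h | h
  · refine h1.trans (mul_le_mul_of_nonneg_left ?_ ha1)
    calc y ^ e0 = (y ^ e0) ^ (1 - lam) * (y ^ e0) ^ lam := by
          rw [← Real.rpow_add hu]
          simp
      _ ≤ _ := mul_le_mul_of_nonneg_left (Real.rpow_le_rpow hu.le h hlam0)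
          (Real.rpow_nonneg hu.le _)
  · refine h2.trans (mul_le_mul_of_nonneg_left ?_ ha1)
    calc y ^ (-C1) * E1 ^ (1 / 2 : ℝ) = (y ^ (-C1) * E1 ^ (1 / 2 : ℝ)) ^ (1 - lam) *
            (y ^ (-C1) * E1 ^ (1 / 2 : ℝ)) ^ lam := by
          rw [← Real.rpow_add hv]
          simp
      _ ≤ _ := mul_le_mul_of_nonneg_right (Real.rpow_le_rpow hv.le h (by linarith))
          (Real.rpow_nonneg hv.le _)

/-- **The composition of the blind and of the signed number.** -/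
theorem num_comp (q : ℕ) {e0 C0 C1 A EM : ℝ} (he0 : 0 < e0) (he1 : e0 ≤ 1) (hC0 : 0 ≤ C0)
    (hC1 : 0 ≤ C1) (hA : 1 ≤ A) (hEM : 1 ≤ EM) :
    ∃ th C : ℝ, 0 < th ∧ 0 < C ∧ ∀ y κ E D b X : ℝ, 0 < y → y ≤ 1 → 1 ≤ κ → 0 < E → E ≤ EM →
      0 ≤ D → 1 ≤ b →
      (∀ L : ℕ, X ≤ D * ((1 + (L : ℝ)) ^ q * (b * A * y ^ e0 +
        (1 + κ) ^ 2 * y ^ (-C0) / 2 ^ L))) →
      (∀ L : ℕ, ∀ dl : ℝ, 0 < dl → X ≤ D * ((1 + (L : ℝ)) ^ q * (A * dl + y ^ (-C1) * E / dl +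
        A * E + (1 + κ) ^ 2 * y ^ (-C1) * (1 + 1 / dl) / 2 ^ L))) →
      X ≤ D * C * b * (1 + Real.log κ + Real.log (1 / y)) ^ q *
        (y ^ (e0 / 2) * (E / EM) ^ th) := by
  set lam : ℝ := e0 / (2 * (e0 + C1)) with hlam
  have hs : 0 < e0 + C1 := by linarith
  have hlam0 : 0 < lam := by positivity
  obtain ⟨Cq, hCq, Hq⟩ := log_absorb q (θ := lam / 4) (by positivity)
  refine ⟨lam / 4, 4 * A * EM * (8 * (C0 + C1 + 1)) ^ q * Cq, by positivity, by positivity, ?_⟩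
  intro y κ E D b X hy hy1 hκ hE hEE hD hb blind signed
  have hEM0 : 0 < EM := by linarith
  have hE10 : 0 < E / EM := div_pos hE hEM0
  have hE11 : E / EM ≤ 1 := by rw [div_le_one hEM0]; exact hEE
  have hy' : 1 ≤ 1 / y := by rw [le_div_iff₀ hy]; linarith
  have hE1' : 1 ≤ 1 / (E / EM) := by rw [le_div_iff₀ hE10]; linarith
  have ly0 : 0 ≤ Real.log (1 / y) := Real.log_nonneg hy'
  have lk0 : 0 ≤ Real.log κ := Real.log_nonneg hκ
  have le0 : 0 ≤ Real.log (1 / (E / EM)) := Real.log_nonneg hE1'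
  have b1 := blind_L q he0 he1 hC0 (a := C0 + C1) (by linarith) hA hEM hy hy1 hκ hD hb le0 blind
  have b2 := signed_L q hC1 (a := C0 + C1) (by linarith) hA hEM hy hy1 hκ hE hEE hD hb signed
  have hq1 := Hq (E / EM) hE10 hE11
  set ly : ℝ := Real.log (1 / y) with hly
  set lk : ℝ := Real.log κ with hlk
  set le : ℝ := Real.log (1 / (E / EM)) with hle
  set R : ℝ := E / EM with hR
  set G : ℝ := 1 + lk + ly + le with hG
  have hG1 : 1 ≤ G := by rw [hG]; linarith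
  have ha10 : 0 ≤ D * (8 * (C0 + C1 + 1) * G) ^ q * (4 * A * EM * b) := by positivity
  have hmin := interp he0 hC1 hlam ha10 hy hE10 b1 b2
  have hGq : G ^ q ≤ (1 + lk + ly) ^ q * (1 + le) ^ q := by
    rw [← mul_pow]
    refine pow_le_pow_left₀ (by linarith) ?_ q
    rw [hG]
    nlinarith [mul_nonneg (add_nonneg lk0 ly0) le0]
  have hsplit : R ^ (lam / 2) = R ^ (lam / 4) * R ^ (lam / 4) := by
    rw [← Real.rpow_add hE10]
    congr 1
    ring
  have hR4 : 0 ≤ R ^ (lam / 4) := Real.rpow_nonneg hE10.le _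
  have hYe : 0 ≤ y ^ (e0 / 2) := Real.rpow_nonneg hy.le _
  have hK : 0 ≤ (8 * (C0 + C1 + 1)) ^ q * (4 * A * EM * b) := by positivity
  calc X ≤ D * (8 * (C0 + C1 + 1) * G) ^ q * (4 * A * EM * b) *
          (y ^ (e0 / 2) * R ^ (lam / 2)) := hmin
    _ = D * ((8 * (C0 + C1 + 1)) ^ q * (4 * A * EM * b)) * (y ^ (e0 / 2) * R ^ (lam / 4)) *
          (G ^ q * R ^ (lam / 4)) := by
        rw [hsplit, mul_pow]
        ring
    _ ≤ D * ((8 * (C0 + C1 + 1)) ^ q * (4 * A * EM * b)) * (y ^ (e0 / 2) * R ^ (lam / 4)) *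
          ((1 + lk + ly) ^ q * Cq) := by
        refine mul_le_mul_of_nonneg_left ?_
          (mul_nonneg (mul_nonneg hD hK) (mul_nonneg hYe hR4))
        calc G ^ q * R ^ (lam / 4) ≤ (1 + lk + ly) ^ q * (1 + le) ^ q * R ^ (lam / 4) :=
              mul_le_mul_of_nonneg_right hGq hR4
          _ = (1 + lk + ly) ^ q * ((1 + le) ^ q * R ^ (lam / 4)) := by ring
          _ ≤ _ := mul_le_mul_of_nonneg_left hq1 (pow_nonneg (by linarith) q)
    _ = _ := by ring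

end

end Vale.Agent.P141.H453
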