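import Vale.Agent.P141.H453.NumC

/-!
# P141, line (A): the composition, power of the energy chosen first

`num_comp2` : `H453.num_comp` with the power of the energy `thC e0 C1` chosen before `A`, `EM`.
-/

namespace Vale.Agent.P141.H453

noncomputable section

/-- the power of the energy -/
def thC (e0 C1 : ℝ) : ℝ := e0 / (8 * (e0 + C1))

theorem thC_pos {e0 C1 : ℝ} (he0 : 0 < e0) (hC1 : 0 ≤ C1) : 0 < thC e0 C1 := by
  unfold thC
  positivity

theorem thC_le {e0 C1 : ℝ} (he0 : 0 < e0) (hC1 : 0 ≤ C1) : thC e0 C1 ≤ 1 := by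
  unfold thC
  rw [div_le_one (by positivity)]
  nlinarith

/-- **The composition of the blind and of the signed number**, power of the energy first. -/
theorem num_comp2 (q : ℕ) {e0 C0 C1 : ℝ} (he0 : 0 < e0) (he1 : e0 ≤ 1) (hC0 : 0 ≤ C0)
    (hC1 : 0 ≤ C1) {A EM : ℝ} (hA : 1 ≤ A) (hEM : 1 ≤ EM) :
    ∃ C : ℝ, 1 ≤ C ∧ ∀ y κ E D b X : ℝ, 0 < y → y ≤ 1 → 1 ≤ κ → 0 < E → E ≤ EM →
      0 ≤ D → 1 ≤ b →
      (∀ L : ℕ, X ≤ D * ((1 + (L : ℝ)) ^ q * (b * A * y ^ e0 +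
        (1 + κ) ^ 2 * y ^ (-C0) / 2 ^ L))) →
      (∀ L : ℕ, ∀ dl : ℝ, 0 < dl → X ≤ D * ((1 + (L : ℝ)) ^ q * (A * dl + y ^ (-C1) * E / dl +
        A * E + (1 + κ) ^ 2 * y ^ (-C1) * (1 + 1 / dl) / 2 ^ L))) →
      X ≤ D * C * b * (1 + Real.log κ + Real.log (1 / y)) ^ q *
        (y ^ (e0 / 2) * E ^ (thC e0 C1)) := by
  set lam : ℝ := e0 / (2 * (e0 + C1)) with hlam
  have hs : 0 < e0 + C1 := by linarith
  have hlam0 : 0 < lam := by positivity
  have hth : thC e0 C1 = lam / 4 := by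
    unfold thC
    rw [hlam]
    field_simp
    norm_num
  obtain ⟨Cq, hCq, Hq⟩ := log_absorb q (θ := lam / 4) (by positivity)
  refine ⟨4 * A * EM * (8 * (C0 + C1 + 1)) ^ q * Cq, ?_, ?_⟩
  · have h1 : (1 : ℝ) ≤ (8 * (C0 + C1 + 1)) ^ q := one_le_pow₀ (by linarith)
    have h2 : (1 : ℝ) ≤ 4 * A * EM := by nlinarith
    exact one_le_mul_of_one_le_of_one_le (one_le_mul_of_one_le_of_one_le h2 h1) hCq
  intro y κ E D b X hy hy1 hκ hE hEE hD hb blind signed
  have hEM0 : 0 < EM := by linarith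
  have hE10 : 0 < E / EM := div_pos hE hEM0
  have hE11 : E / EM ≤ 1 := by rw [div_le_one hEM0]; exact hEE
  have hy' : 1 ≤ 1 / y := by rw [le_div_iff₀ hy]; linarith
  have hE1' : 1 ≤ 1 / (E / EM) := by rw [le_div_iff₀ hE10]; linarith
  have ly0 : 0 ≤ Real.log (1 / y) := Real.log_nonneg hy'
  have lk0 : 0 ≤ Real.log κ := Real.log_nonneg hκ
  have le0 : 0 ≤ Real.log (1 / (E / EM)) := Real.log_nonneg hE1'
  have b1 := blind_L q he0 he1 hC0 (a := C0 + C1) (by linarith) hA hEM hy hy1 hκ hD hb le0 blind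
  have b2 := signed_L q hC1 (a := C0 + C1) (by linarith) hA hEM hy hy1 hκ hE hEE hD hb signed
  have hq1 := Hq (E / EM) hE10 hE11
  have hRE : (E / EM) ^ (lam / 4) ≤ E ^ (lam / 4) :=
    Real.rpow_le_rpow hE10.le (div_le_self hE.le hEM) (by positivity)
  rw [hth]
  set ly : ℝ := Real.log (1 / y) with hly
  set lk : ℝ := Real.log κ with hlk
  set le : ℝ := Real.log (1 / (E / EM)) with hle
  set R : ℝ := E / EM with hR
  set G : ℝ := 1 + lk + ly + le with hG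
  have hG1 : 1 ≤ G := by rw [hG]; linarith
  have ha10 : 0 ≤ D * (8 * (C0 + C1 + 1) * G) ^ q * (4 * A * EM * b) := by positivity
  have hmin := interp he0 hC1 hlam ha10 hy hE10 b1 b2
  have hGq : G ^ q ≤ (1 + lk + ly) ^ q * (1 + le) ^ q := by
    rw [← mul_pow]
    refine pow_le_pow_left₀ (by linarith) ?_ q
    rw [hG]
    nlinarith [mul_nonneg (add_nonneg lk0 ly0) le0]
  have hsplit : R ^ (lam / 2) = R ^ (lam / 4) * R ^ (lam / 4) := by
    rw [← Real.rpow_add hE10]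
    congr 1
    ring
  have hR4 : 0 ≤ R ^ (lam / 4) := Real.rpow_nonneg hE10.le _
  have hYe : 0 ≤ y ^ (e0 / 2) := Real.rpow_nonneg hy.le _
  have hK : 0 ≤ (8 * (C0 + C1 + 1)) ^ q * (4 * A * EM * b) := by positivity
  have hE4 : 0 ≤ E ^ (lam / 4) := Real.rpow_nonneg hE.le _
  have hL0 : 0 ≤ (1 + lk + ly) ^ q * Cq := mul_nonneg (pow_nonneg (by linarith) q) (by linarith)
  calc X ≤ D * (8 * (C0 + C1 + 1) * G) ^ q * (4 * A * EM * b) *
          (y ^ (e0 / 2) * R ^ (lam / 2)) := hmin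
    _ = D * ((8 * (C0 + C1 + 1)) ^ q * (4 * A * EM * b)) * (y ^ (e0 / 2) * R ^ (lam / 4)) *
          (G ^ q * R ^ (lam / 4)) := by
        rw [hsplit, mul_pow]
        ring
    _ ≤ D * ((8 * (C0 + C1 + 1)) ^ q * (4 * A * EM * b)) * (y ^ (e0 / 2) * R ^ (lam / 4)) *
          ((1 + lk + ly) ^ q * Cq) := by
        refine mul_le_mul_of_nonneg_left ?_
          (mul_nonneg (mul_nonneg hD hK) (mul_nonneg hYe hR4))
        calc G ^ q * R ^ (lam / 4) ≤ (1 + lk + ly) ^ q * (1 + le) ^ q * R ^ (lam / 4) :=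
              mul_le_mul_of_nonneg_right hGq hR4
          _ = (1 + lk + ly) ^ q * ((1 + le) ^ q * R ^ (lam / 4)) := by ring
          _ ≤ _ := mul_le_mul_of_nonneg_left hq1 (pow_nonneg (by linarith) q)
    _ ≤ D * ((8 * (C0 + C1 + 1)) ^ q * (4 * A * EM * b)) * (y ^ (e0 / 2) * E ^ (lam / 4)) *
          ((1 + lk + ly) ^ q * Cq) := by
        refine mul_le_mul_of_nonneg_right ?_ hL0
        exact mul_le_mul_of_nonneg_left (mul_le_mul_of_nonneg_left hRE hYe) (mul_nonneg hD hK)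
    _ = _ := by ring

end

end Vale.Agent.P141.H453
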